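import Vale.Agent.Lib.P143.Final

/-!
# P143: the free uniform spanning forest is a factor of IID

On every Cayley graph of every infinite finitely generated group the free uniform spanning forest
is a group factor of IID, and on every unimodular random graph it is a graph factor of IID.
-/

namespace Vale.Agent.Results.P143.FusfFactorIID

open MeasureTheory Vale.Agent.P143

universe u

theorem result :
    (∀ (Γ : Type u) [Group Γ] [Infinite Γ] (S : Finset Γ),
      Subgroup.closure (S : Set Γ) = ⊤ →
        ∃ μ : Measure (Set (Sym2 Γ)),
          IsFUSF (SimpleGraph.mulCayley (S : Set Γ)) μ ∧ IsGroupFactorOfIID Γ μ) ∧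
    (∀ P : Measure (SimpleGraph ℕ × ℕ), IsUnimodular P → FUSFIsGraphFactorOfIID P) :=
  ⟨fun _ _ _ S hS => isGroupFactorOfIID_mulCayley S hS,
    fun P hP => fusfIsGraphFactorOfIID P hP.2.1⟩

end Vale.Agent.Results.P143.FusfFactorIID
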