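import Vale.Agent.Lib.P143.Final

/-!
# P143: one Borel isomorphism-invariant map produces the free uniform spanning forest of every
connected locally finite graph from i.i.d. vertex labels
-/

namespace Vale.Agent.Results.P143.Universal

open MeasureTheory Vale.Agent.P143
open scoped unitInterval

universe u

theorem result (V : Type u) [Countable V] :
    ∃ Φ : SimpleGraph V × (V → I) → Set (Sym2 V), Measurable Φ ∧
      (∀ (τ : Equiv.Perm V) (G : SimpleGraph V) (U : V → I),
        Φ (G.map τ.toEmbedding, fun v => U (τ.symm v)) = Sym2.map τ '' Φ (G, U)) ∧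
      ∀ G : SimpleGraph V, G.Connected → (∀ v, (G.neighborSet v).Finite) →
        IsFUSF G ((iidUniform V).map (fun U => Φ (G, U))) :=
  ⟨factor, measurable_factor, fun τ G U => factor_map τ G U,
    fun _ hG hf => isFUSF_factor hG hf⟩

end Vale.Agent.Results.P143.Universal
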