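import Vale.Agent.Lib.P143.WDefs
import Vale.Agent.Lib.P143.WProof

/-!
# P143: the free uniform spanning forest is a factor of IID

First part: for every Cayley graph of every finitely generated group `Γ` there is a measurable
`Γ`-equivariant `Φ : [0,1]^Γ → {0,1}^(pairs)` such that `Φ U` has the law of the free uniform
spanning forest.  Second part: the same for every unimodular random rooted graph `(G, o)` (two
random variables on a probability space, satisfying the mass transport principle), with a Borel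
function `Φ (G, U, e)` which is invariant under isomorphisms.
-/

namespace Vale.Agent.Results.P143.WeakLimit

open MeasureTheory Filter Topology Vale.Agent.P143W
open scoped unitInterval ENNReal

universe u v

theorem result :
    (∀ (Γ : Type u) [Group Γ] (S : Finset Γ), Subgroup.closure (S : Set Γ) = ⊤ →
      ∃ Φ : (Γ → I) → Sym2 Γ → Bool, Measurable Φ ∧
        (∀ (γ : Γ) (U : Γ → I) (e : Sym2 Γ),
          Φ (fun v => U (γ⁻¹ * v)) (e.map fun v => γ * v) = Φ U e) ∧
        IsFUSF (SimpleGraph.mulCayley (S : Set Γ)) ((labels Γ).map Φ)) ∧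
    ∀ (Ω : Type v) [MeasurableSpace Ω] (P : Measure Ω) [IsProbabilityMeasure P]
      (G : Ω → SimpleGraph ℕ) (o : Ω → ℕ), Measurable G → Measurable o →
      (∀ᵐ x ∂P, (G x).Connected ∧ ∀ v, ((G x).neighborSet v).Finite) →
      (∀ f : SimpleGraph ℕ → ℕ → ℕ → ℝ≥0∞,
        (Measurable fun p : SimpleGraph ℕ × ℕ × ℕ => f p.1 p.2.1 p.2.2) →
        (∀ (τ : Equiv.Perm ℕ) (K : SimpleGraph ℕ) (u v : ℕ),
          f (K.map τ.toEmbedding) (τ u) (τ v) = f K u v) →
        ∫⁻ x, ∑' v, f (G x) (o x) v ∂P = ∫⁻ x, ∑' v, f (G x) v (o x) ∂P) →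
      ∃ Φ : SimpleGraph ℕ → (ℕ → I) → Sym2 ℕ → Bool,
        (Measurable fun p : SimpleGraph ℕ × (ℕ → I) => Φ p.1 p.2) ∧
        (∀ (τ : Equiv.Perm ℕ) (K : SimpleGraph ℕ) (U : ℕ → I) (e : Sym2 ℕ),
          Φ (K.map τ.toEmbedding) (fun v => U (τ.symm v)) (e.map τ) = Φ K U e) ∧
        ∀ᵐ x ∂P, IsFUSF (G x) ((labels ℕ).map (Φ (G x))) := by
  refine ⟨fun Γ _ S hS => ?_, fun Ω _ P _ G o _ _ hG _ => ?_⟩
  · have h1 := Vale.Agent.P143.connected_mulCayley (S : Set Γ) hS
    have h2 := Vale.Agent.P143.locallyFinite_mulCayley S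
    have hc : Countable Γ := Vale.Agent.P143.countable_of_connected h1 h2
    refine ⟨fac (SimpleGraph.mulCayley (S : Set Γ)), measurable_fac_one _,
      fun γ U e => ?_, isFUSF_fac h1 h2⟩
    have h := fac_map (Equiv.mulLeft γ) (SimpleGraph.mulCayley (S : Set Γ)) U e
    rw [Vale.Agent.P143.map_mulCayley] at h
    exact h
  · refine ⟨fac, measurable_fac, fac_map, ?_⟩
    filter_upwards [hG] with x hx
    exact isFUSF_fac hx.1 hx.2

end Vale.Agent.Results.P143.WeakLimit
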